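import Mathlib

/-!
Arithmetic of the star-world recursion (helper320, note 5795).

`S K T V` : there is an instance of the star world with `K` arms, integral optimum at most `T`
and fractional solution of value `V`.
-/

namespace Vale.Agent.P302.H618

/-- The step `(*)` in the form it is proved: the deficiency of the new star is at least
`(1 - 1/q) + (V₁-T₁)/q + (1-1/q)(V₂-T₂)`. -/
def Step (S : ℕ → ℕ → ℚ → Prop) : Prop :=
  ∀ q K : ℕ, 2 ≤ q → 1 ≤ K → ∀ (T₁ T₂ : ℕ) (V₁ V₂ : ℚ), S q T₁ V₁ → S (K - 1) T₂ V₂ →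
    ∃ (T : ℕ) (V : ℚ), S K T V ∧
      (1 - 1 / (q : ℚ)) + (V₁ - T₁) / q + (1 - 1 / (q : ℚ)) * (V₂ - T₂) ≤ V - T

theorem star_unbounded_aux (S : ℕ → ℕ → ℚ → Prop) (hstep : Step S)
    (h0 : ∀ K, ∃ (T : ℕ) (V : ℚ), S K T V ∧ 0 ≤ V - T) (s : ℕ) :
    ∀ K : ℕ, ∀ ε : ℚ, 0 < ε → ∃ (T : ℕ) (V : ℚ), S K T V ∧ (s : ℚ) * K - ε ≤ V - T := by
  induction s with
  | zero =>
    intro K ε hε
    obtain ⟨T, V, h, h'⟩ := h0 K
    refine ⟨T, V, h, ?_⟩
    push_cast
    linarith
  | succ s ih =>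
    intro K
    induction K with
    | zero =>
      intro ε hε
      obtain ⟨T, V, h, h'⟩ := h0 0
      refine ⟨T, V, h, ?_⟩
      push_cast
      linarith
    | succ K ihK =>
      intro ε hε
      -- the second child
      obtain ⟨T₂, V₂, hS₂, hD₂⟩ := ihK (ε / 4) (by positivity)
      -- choose `q`
      set D₂ : ℚ := V₂ - T₂ with hD₂def
      obtain ⟨q, hq⟩ := exists_nat_gt ((4 + 4 * |D₂|) / ε + 2)
      have hq2 : (2 : ℚ) < q := by
        have : 0 ≤ (4 + 4 * |D₂|) / ε := by positivity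
        linarith
      have hq2' : 2 ≤ q := by
        have : (2 : ℕ) < q := by exact_mod_cast hq2
        omega
      have hq0 : (0 : ℚ) < q := by linarith
      have hqε : (4 + 4 * |D₂|) < ε * q := by
        have h1 : (4 + 4 * |D₂|) / ε < q := by linarith
        rw [div_lt_iff₀ hε] at h1
        linarith [mul_comm ε (q : ℚ)]
      -- the first child
      obtain ⟨T₁, V₁, hS₁, hD₁⟩ := ih q 1 one_pos
      obtain ⟨T, V, hS, hD⟩ := hstep q (K + 1) hq2' (by omega) T₁ T₂ V₁ V₂ hS₁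
        (by simpa using hS₂)
      refine ⟨T, V, hS, le_trans ?_ hD⟩
      have e1 : (V₁ - T₁) / q ≥ s - 1 / q := by
        rw [ge_iff_le, le_div_iff₀ hq0]
        have : ((s : ℚ) - 1 / q) * q = s * q - 1 := by field_simp
        rw [this]
        exact hD₁
      have e2 : (1 / (q : ℚ)) * |D₂| ≤ ε / 4 := by
        rw [one_div, inv_mul_le_iff₀ hq0]
        have : (q : ℚ) * (ε / 4) = ε * q / 4 := by ring
        rw [this]
        linarith
      have e3 : (1 / (q : ℚ)) ≤ ε / 4 := by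
        rw [one_div, inv_le_iff_one_le_mul₀ hq0]
        have : 0 ≤ |D₂| := abs_nonneg _
        linarith
      have e4 : (1 / (q : ℚ)) * D₂ ≤ (1 / (q : ℚ)) * |D₂| :=
        mul_le_mul_of_nonneg_left (le_abs_self _) (by positivity)
      push_cast
      have e5 : ((s : ℚ) + 1) * K - ε / 4 ≤ D₂ := by
        have := hD₂
        push_cast at this
        exact this
      have e6 : (1 - 1 / (q : ℚ)) * D₂ = D₂ - (1 / (q : ℚ)) * D₂ := by ring
      rw [← hD₂def, e6]
      nlinarith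

/-- **Unboundedness**: the one-arm star world (`a + b + c ≤ 0` with three classes) has
instances of arbitrarily large deficiency. -/
theorem star_unbounded (S : ℕ → ℕ → ℚ → Prop) (hstep : Step S)
    (h0 : ∀ K, ∃ (T : ℕ) (V : ℚ), S K T V ∧ 0 ≤ V - T) (M : ℚ) :
    ∃ (T : ℕ) (V : ℚ), S 1 T V ∧ M ≤ V - T := by
  obtain ⟨s, hs⟩ := exists_nat_gt (M + 1)
  obtain ⟨T, V, h, h'⟩ := star_unbounded_aux S hstep h0 s 1 1 one_pos
  refine ⟨T, V, h, ?_⟩
  push_cast at h'
  linarith

end Vale.Agent.P302.H618
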