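import Vale.Agent.P302.H618.Final
import Vale.Agent.P302.H320.Star

/-!
Assembly: step statement and embedding as hypotheses.
-/

namespace Vale.Agent.P302.H618

open Vale.Agent.P302

/-- the step of the recursion for the star worlds of helper320 -/
def StarStep : Prop :=
  ∀ q K : ℕ, 2 ≤ q → ∀ (T₁ T₂ : ℕ) (V₁ V₂ : ℚ), Star.SDef q T₁ V₁ → Star.SDef K T₂ V₂ →
    ∃ (T : ℕ) (V : ℚ), Star.SDef (K + 1) T V ∧
      V - T = (1 - 1 / (q : ℚ)) + (V₁ - T₁) / q + (1 - 1 / (q : ℚ)) * (V₂ - T₂)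

theorem step_of_starStep (h : StarStep) : Step Star.SDef := by
  intro q K hq hK T₁ T₂ V₁ V₂ h1 h2
  obtain ⟨K', rfl⟩ : ∃ K', K = K' + 1 := ⟨K - 1, by omega⟩
  obtain ⟨T, V, hS, hE⟩ := h q K' hq T₁ T₂ V₁ V₂ h1 (by simpa using h2)
  exact ⟨T, V, hS, hE.ge⟩

/-- the embedding of the one-arm star world into the `(x, x'; y)` problem -/
def StarEmb : Prop :=
  ∀ (T : ℕ) (V : ℚ), Star.SDef 1 T V →
    ∃ (T' : ℕ) (V' : ℚ), UDef T' V' ∧ V' - T' = 1 / 2 + (V - T) / 2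

/-- unbounded deficiency of the one-arm star world -/
theorem sdef_unbounded (h : StarStep) (M : ℚ) :
    ∃ (T : ℕ) (V : ℚ), Star.SDef 1 T V ∧ M ≤ V - T :=
  star_unbounded Star.SDef (step_of_starStep h) (fun K => ⟨0, 0, Star.sdef_zero K, by simp⟩) M

/-- unbounded `OPT - LP` -/
theorem gap_unbounded_of (h : StarStep) (he : StarEmb) (M : ℝ) :
    ∃ K : ℕ, ∀ k : ℕ, K ≤ k → ∃ I : List ℚ, IsInstance I ∧ OPT I = k ∧
      M < (OPT I : ℝ) - LP I := by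
  obtain ⟨K, hK⟩ := gap_unbounded_of_star Star.SDef (step_of_starStep h)
    (fun K => ⟨0, 0, Star.sdef_zero K, by simp⟩)
    (fun T V hS => by
      obtain ⟨T', V', h1, h2⟩ := he T V hS
      exact ⟨T', V', h1, h2.ge⟩) (M + 1)
  refine ⟨K, fun k hk => ?_⟩
  obtain ⟨I, h1, h2, h3⟩ := hK k hk
  exact ⟨I, h1, h2, by linarith⟩

/-- both statements of the hand-in -/
theorem main_of (h : StarStep) (he : StarEmb) :
    (∃ I : List ℚ, IsInstance I ∧ ⌈LP I⌉ + 1 < (OPT I : ℤ)) ∧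
    ∀ M : ℝ, ∃ K : ℕ, ∀ k : ℕ, K ≤ k → ∃ I : List ℚ, IsInstance I ∧ OPT I = k ∧
      M < (OPT I : ℝ) - LP I := by
  refine ⟨?_, fun M => gap_unbounded_of h he M⟩
  obtain ⟨K, hK⟩ := gap_unbounded_of h he 2
  obtain ⟨I, h1, _, h3⟩ := hK K le_rfl
  refine ⟨I, h1, ?_⟩
  have h4 := Int.ceil_lt_add_one (LP I)
  have h5 : ((⌈LP I⌉ + 1 : ℤ) : ℝ) < ((OPT I : ℤ) : ℝ) := by
    push_cast
    linarith
  exact_mod_cast h5

end Vale.Agent.P302.H618
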