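import Vale.Agent.P302.H618.Arith
import Vale.Agent.P302.H877.FamFinal

/-!
From unbounded deficiencies of the `(x, x'; y)` problem to unbounded `OPT - LP` and the failure of
the modified integer round-up property.
-/

namespace Vale.Agent.P302.H618

open Vale.Agent.P302

/-- if the deficiencies of the `(x, x'; y)` problem are unbounded then so is `OPT - LP`, for every
large value of `OPT` -/
theorem gap_unbounded (hU : ∀ M : ℚ, ∃ (T : ℕ) (V : ℚ), UDef T V ∧ M ≤ V - T) (M : ℝ) :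
    ∃ K : ℕ, ∀ k : ℕ, K ≤ k → ∃ I : List ℚ, IsInstance I ∧ OPT I = k ∧
      M ≤ (OPT I : ℝ) - LP I := by
  obtain ⟨n, hn⟩ := exists_nat_gt (5 * M)
  obtain ⟨T, V, h1, h2⟩ := hU n
  obtain ⟨K, hK⟩ := fam_gap h1 one_pos
  refine ⟨K, fun k hk => ?_⟩
  obtain ⟨I, hI1, hI2, hI3⟩ := hK k hk
  refine ⟨I, hI1, hI2, le_trans ?_ hI3⟩
  have h2' : (n : ℝ) ≤ (V : ℝ) - T := by exact_mod_cast h2
  push_cast
  linarith

/-- the same from the star worlds -/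
theorem gap_unbounded_of_star (S : ℕ → ℕ → ℚ → Prop) (hstep : Step S)
    (h0 : ∀ K, ∃ (T : ℕ) (V : ℚ), S K T V ∧ 0 ≤ V - T)
    (hemb : ∀ (T : ℕ) (V : ℚ), S 1 T V →
      ∃ (T' : ℕ) (V' : ℚ), UDef T' V' ∧ 1 / 2 + (V - T) / 2 ≤ V' - T') (M : ℝ) :
    ∃ K : ℕ, ∀ k : ℕ, K ≤ k → ∃ I : List ℚ, IsInstance I ∧ OPT I = k ∧
      M ≤ (OPT I : ℝ) - LP I := by
  refine gap_unbounded (fun M => ?_) M
  obtain ⟨T, V, h1, h2⟩ := star_unbounded S hstep h0 (2 * M)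
  obtain ⟨T', V', h3, h4⟩ := hemb T V h1
  exact ⟨T', V', h3, by linarith⟩

/-- the modified integer round-up conjecture fails if `OPT - LP` is unbounded -/
theorem mirup_false (h : ∀ M : ℝ, ∃ K : ℕ, ∀ k : ℕ, K ≤ k → ∃ I : List ℚ, IsInstance I ∧
      OPT I = k ∧ M ≤ (OPT I : ℝ) - LP I) :
    ¬ MIRUP := by
  intro hall
  obtain ⟨K, hK⟩ := h 2
  obtain ⟨I, hI1, _, hI3⟩ := hK K le_rfl
  have h1 := hall I hI1
  have h2 : ((OPT I : ℤ) : ℝ) ≤ ((⌈LP I⌉ + 1 : ℤ) : ℝ) := by exact_mod_cast h1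
  have h3 := Int.ceil_lt_add_one (LP I)
  push_cast at h2
  linarith

end Vale.Agent.P302.H618
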