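import Vale.Agent.P302.H618.UEmb
import Vale.Agent.P302.H320.Step

/-!
# Bin packing: `OPT - LP` is unbounded
-/

namespace Vale.Agent.P302.H618

open Vale.Agent.P302

theorem starStep : StarStep :=
  fun _ _ hq _ _ _ _ h1 h2 => Star.step hq h1 h2

theorem main :
    (∃ I : List ℚ, IsInstance I ∧ ⌈LP I⌉ + 1 < (OPT I : ℤ)) ∧
    ∀ M : ℝ, ∃ K : ℕ, ∀ k : ℕ, K ≤ k → ∃ I : List ℚ, IsInstance I ∧ OPT I = k ∧
      M < (OPT I : ℝ) - LP I :=
  main_of starStep starEmb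

end Vale.Agent.P302.H618
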