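import Vale.Agent.P302.H320.Star
import Vale.Agent.P302.H794.URec
import Vale.Agent.P302.H618.Assemble

/-!
# The one-arm star world inside the `(x, x'; y)` problem
-/

namespace Vale.Agent.P302.H618

open Vale.Agent.P302

section Emb

variable {α β : Type} [Fintype α] [Fintype β]

/-- values of the `x` items: items of the first class (coarse value `+H`), items of the second
class and additional items (coarse value `-H`) -/
def vX (Φ : ℤ) (b c : β → ℤ) {e : ℕ} : β ⊕ (β ⊕ Fin e) → ℤ :=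
  Sum.elim (fun y => b y + (6 * Φ + 4))
    (Sum.elim (fun z => c z - (6 * Φ + 4)) (fun _ => (2 * Φ + 1) - (6 * Φ + 4)))

/-- values of the `y` items -/
def vY (Φ : ℤ) (a : α → ℤ) {γ : Type} : α ⊕ γ → ℤ :=
  Sum.elim a (fun _ => 2 * Φ + 1)

omit [Fintype α] [Fintype β] in
/-- a usable pattern is exact or consists of two items of coarse value `-H` -/
theorem cases_use {Φ : ℤ} {a : α → ℤ} {b c : β → ℤ} {e : ℕ} {γ : Type}
    (ha : ∀ x, |a x| ≤ Φ) (hb : ∀ y, |b y| ≤ Φ) (hc : ∀ z, |c z| ≤ Φ) (hΦ : 0 ≤ Φ)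
    (s1 s2 : β ⊕ (β ⊕ Fin e)) (r : α ⊕ γ) (h : vX Φ b c s1 + vX Φ b c s2 + vY Φ a r ≤ 0) :
    (s1.isRight = true ∧ s2.isRight = true) ∨
    (∃ x y z, r = Sum.inl x ∧ ((s1 = Sum.inl y ∧ s2 = Sum.inr (Sum.inl z)) ∨
      (s2 = Sum.inl y ∧ s1 = Sum.inr (Sum.inl z))) ∧ a x + b y + c z ≤ 0) := by
  have ha' : ∀ x, -Φ ≤ a x := fun x => (abs_le.1 (ha x)).1
  have hb' : ∀ x, -Φ ≤ b x := fun x => (abs_le.1 (hb x)).1
  have hc' : ∀ x, -Φ ≤ c x := fun x => (abs_le.1 (hc x)).1
  rcases s1 with y1 | z1 | k1 <;> rcases s2 with y2 | z2 | k2 <;> rcases r with x | k <;>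
    simp only [vX, vY, Sum.elim_inl, Sum.elim_inr] at h
  · exfalso
    have := ha' x; have := hb' y1; have := hb' y2
    omega
  · exfalso
    have := hb' y1; have := hb' y2
    omega
  · right
    exact ⟨x, y1, z2, rfl, Or.inl ⟨rfl, rfl⟩, by omega⟩
  · exfalso
    have := hb' y1; have := hc' z2
    omega
  · exfalso
    have := hb' y1; have := ha' x
    omega
  · exfalso
    have := hb' y1
    omega
  · right
    exact ⟨x, y2, z1, rfl, Or.inr ⟨rfl, rfl⟩, by omega⟩
  · exfalso
    have := hb' y2; have := hc' z1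
    omega
  · left; exact ⟨rfl, rfl⟩
  · left; exact ⟨rfl, rfl⟩
  · left; exact ⟨rfl, rfl⟩
  · left; exact ⟨rfl, rfl⟩
  · exfalso
    have := hb' y2; have := ha' x
    omega
  · exfalso
    have := hb' y2
    omega
  · left; exact ⟨rfl, rfl⟩
  · left; exact ⟨rfl, rfl⟩
  · left; exact ⟨rfl, rfl⟩
  · left; exact ⟨rfl, rfl⟩

omit [Fintype α] [Fintype β] in
/-- exact patterns as patterns of the star world -/
theorem exists_exact {e : ℕ} {γ : Type} {a : α → ℤ} {b c : β → ℤ}
    (S : Multiset ((β ⊕ (β ⊕ Fin e)) × (β ⊕ (β ⊕ Fin e)) × (α ⊕ γ)))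
    (hS : ∀ t ∈ S, ∃ x y z, t.2.2 = Sum.inl x ∧ ((t.1 = Sum.inl y ∧ t.2.1 = Sum.inr (Sum.inl z)) ∨
      (t.2.1 = Sum.inl y ∧ t.1 = Sum.inr (Sum.inl z))) ∧ a x + b y + c z ≤ 0) :
    ∃ E : Multiset (α × β × β), E.card = S.card ∧ (∀ p ∈ E, a p.1 + b p.2.1 + c p.2.2 ≤ 0) ∧
      S.map (fun t => t.2.2) = E.map (fun p => Sum.inl p.1) ∧
      S.map (fun t => t.1) + S.map (fun t => t.2.1) =
        E.map (fun p => Sum.inl p.2.1) + E.map (fun p => Sum.inr (Sum.inl p.2.2)) := by
  induction S using Multiset.induction with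
  | empty => exact ⟨0, by simp, by simp, by simp, by simp⟩
  | cons t S ih =>
    obtain ⟨E, h1, h2, h3, h4⟩ := ih (fun s hs => hS s (by simp [hs]))
    obtain ⟨x, y, z, hx, hyz, hu⟩ := hS t (by simp)
    refine ⟨(x, y, z) ::ₘ E, by simp [h1], ?_, ?_, ?_⟩
    · intro p hp
      rcases Multiset.mem_cons.1 hp with rfl | hp
      · exact hu
      · exact h2 p hp
    · rw [Multiset.map_cons, Multiset.map_cons, h3, hx]
    · rw [Multiset.map_cons, Multiset.map_cons, Multiset.map_cons, Multiset.map_cons,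
        Multiset.cons_add, Multiset.add_cons, h4, Multiset.cons_add, Multiset.add_cons]
      rcases hyz with ⟨e1, e2⟩ | ⟨e1, e2⟩
      · rw [e1, e2]
      · rw [e1, e2, Multiset.cons_swap]

theorem card_exact_le {e : ℕ} {γ : Type} [Fintype γ] {T : ℕ} {a : α → ℤ} {b c : Fin 1 → β → ℤ}
    (hT : ∀ S : Finset (Star.Pat 1 α β), Star.IsPack a b c S → S.card ≤ T)
    (S : Multiset ((β ⊕ (β ⊕ Fin e)) × (β ⊕ (β ⊕ Fin e)) × (α ⊕ γ)))
    (hS : ∀ t ∈ S, ∃ x y z, t.2.2 = Sum.inl x ∧ ((t.1 = Sum.inl y ∧ t.2.1 = Sum.inr (Sum.inl z)) ∨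
      (t.2.1 = Sum.inl y ∧ t.1 = Sum.inr (Sum.inl z))) ∧ a x + b 0 y + c 0 z ≤ 0)
    (hX : S.map (fun t => t.1) + S.map (fun t => t.2.1) ≤
      (Finset.univ : Finset (β ⊕ (β ⊕ Fin e))).val)
    (hY : S.map (fun t => t.2.2) ≤ (Finset.univ : Finset (α ⊕ γ)).val) : S.card ≤ T := by
  obtain ⟨E, h1, h2, h3, h4⟩ := exists_exact S hS
  rw [h3] at hY
  rw [h4] at hX
  have nY : (E.map (fun p => (Sum.inl p.1 : α ⊕ γ))).Nodup :=
    Multiset.nodup_of_le hY Finset.univ.nodup
  have nX : (E.map (fun p => (Sum.inl p.2.1 : β ⊕ (β ⊕ Fin e)))).Nodup :=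
    Multiset.nodup_of_le ((Multiset.le_add_right _ _).trans hX) Finset.univ.nodup
  have nZ : (E.map (fun p => (Sum.inr (Sum.inl p.2.2) : β ⊕ (β ⊕ Fin e)))).Nodup :=
    Multiset.nodup_of_le ((Multiset.le_add_left _ _).trans hX) Finset.univ.nodup
  have nE : E.Nodup := Multiset.Nodup.of_map _ nY
  let emb : (α × β × β) ↪ Star.Pat 1 α β :=
    ⟨fun p => (p.1, 0, p.2.1, p.2.2), by
      rintro ⟨p1, p2, p3⟩ ⟨q1, q2, q3⟩ h
      simp only [Prod.mk.injEq] at h
      obtain ⟨r1, _, r2, r3⟩ := h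
      rw [r1, r2, r3]⟩
  have hp := hT ((⟨E, nE⟩ : Finset (α × β × β)).map emb) ?_
  · rw [Finset.card_map] at hp
    rw [← h1]
    exact hp
  · constructor
    · intro t ht
      obtain ⟨p, hp, rfl⟩ := Finset.mem_map.1 ht
      exact h2 p hp
    · intro t ht t' ht' h
      obtain ⟨p, hp, rfl⟩ := Finset.mem_map.1 ht
      obtain ⟨p', hp', rfl⟩ := Finset.mem_map.1 ht'
      have := Multiset.inj_on_of_nodup_map nY p hp p' hp' (congrArg Sum.inl h)
      rw [this]
    · intro t ht t' ht' _ h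
      obtain ⟨p, hp, rfl⟩ := Finset.mem_map.1 ht
      obtain ⟨p', hp', rfl⟩ := Finset.mem_map.1 ht'
      have := Multiset.inj_on_of_nodup_map nX p hp p' hp' (congrArg Sum.inl h)
      rw [this]
    · intro t ht t' ht' _ h
      obtain ⟨p, hp, rfl⟩ := Finset.mem_map.1 ht
      obtain ⟨p', hp', rfl⟩ := Finset.mem_map.1 ht'
      have := Multiset.inj_on_of_nodup_map nZ p hp p' hp'
        (congrArg (fun w => Sum.inr (Sum.inl w)) h)
      rw [this]

/-- number of right items in a list -/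
theorem card_right {e : ℕ} (L : Multiset (β ⊕ (β ⊕ Fin e)))
    (h : L ≤ (Finset.univ : Finset (β ⊕ (β ⊕ Fin e))).val) :
    (L.filter (fun s => s.isRight = true)).card ≤ Fintype.card β + e := by
  have h1 := Multiset.card_le_card (Multiset.filter_le_filter (fun s => s.isRight = true) h)
  refine h1.trans (le_of_eq ?_)
  have h2 : (Multiset.filter (fun s => s.isRight = true)
      (Finset.univ : Finset (β ⊕ (β ⊕ Fin e))).val) =
      ((Finset.univ : Finset (β ⊕ (β ⊕ Fin e))).filter (fun s => s.isRight = true)).val := rfl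
  rw [h2, Finset.card_val]
  have h3 : ((Finset.univ : Finset (β ⊕ (β ⊕ Fin e))).filter (fun s => s.isRight = true)) =
      (Finset.univ : Finset (β ⊕ Fin e)).map ⟨Sum.inr, Sum.inr_injective⟩ := by
    ext s
    rcases s with y | s <;> simp
  rw [h3, Finset.card_map, Finset.card_univ, Fintype.card_sum, Fintype.card_fin]

/-- the integral bound: `2 N ≤ n₂ + T` -/
theorem int_bound {e : ℕ} {γ : Type} [Fintype γ] {T : ℕ} {Φ : ℤ} {a : α → ℤ}
    {b c : Fin 1 → β → ℤ} (ha : ∀ x, |a x| ≤ Φ) (hb : ∀ y, |b 0 y| ≤ Φ)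
    (hc : ∀ z, |c 0 z| ≤ Φ) (hΦ : 0 ≤ Φ)
    (hT : ∀ S : Finset (Star.Pat 1 α β), Star.IsPack a b c S → S.card ≤ T)
    (S : Multiset ((β ⊕ (β ⊕ Fin e)) × (β ⊕ (β ⊕ Fin e)) × (α ⊕ γ)))
    (hS : TPack (vX Φ (b 0) (c 0)) (vY Φ a) (Finset.univ : Finset (β ⊕ (β ⊕ Fin e))).val
      (Finset.univ : Finset (α ⊕ γ)).val S) :
    2 * S.card ≤ Fintype.card β + e + T := by
  classical
  obtain ⟨h1, h2, h3⟩ := hS
  let P : (β ⊕ (β ⊕ Fin e)) × (β ⊕ (β ⊕ Fin e)) × (α ⊕ γ) → Prop :=
    fun t => t.1.isRight = true ∧ t.2.1.isRight = true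
  have hsplit := Multiset.filter_add_not P S
  set S1 := S.filter P with hS1
  set S2 := S.filter (fun t => ¬ P t) with hS2
  have hle2 : S2 ≤ S := Multiset.filter_le _ _
  -- the exact ones
  have hex : ∀ t ∈ S2, ∃ x y z, t.2.2 = Sum.inl x ∧
      ((t.1 = Sum.inl y ∧ t.2.1 = Sum.inr (Sum.inl z)) ∨
      (t.2.1 = Sum.inl y ∧ t.1 = Sum.inr (Sum.inl z))) ∧ a x + b 0 y + c 0 z ≤ 0 := by
    intro t ht
    have ht' := Multiset.mem_filter.1 ht
    rcases cases_use ha hb hc hΦ t.1 t.2.1 t.2.2 (h1 t ht'.1) with h | ⟨x, y, z, q1, q2, q3⟩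
    · exact absurd h ht'.2
    · exact ⟨x, y, z, q1, q2, q3⟩
  have c2 : S2.card ≤ T := by
    refine card_exact_le hT S2 hex (le_trans ?_ h2) (le_trans (Multiset.map_le_map hle2) h3)
    exact add_le_add (Multiset.map_le_map hle2) (Multiset.map_le_map hle2)
  -- count the right items
  have c1 := card_right (S.map (fun t => t.1) + S.map (fun t => t.2.1)) h2
  have c3 : 2 * S1.card + S2.card ≤ ((S.map (fun t => t.1) + S.map (fun t => t.2.1)).filter
      (fun s => s.isRight = true)).card := by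
    rw [← hsplit, Multiset.map_add, Multiset.map_add, Multiset.filter_add, Multiset.filter_add,
      Multiset.filter_add, Multiset.card_add, Multiset.card_add, Multiset.card_add]
    have e1 : ((S1.map (fun t => t.1)).filter (fun s => s.isRight = true)).card = S1.card := by
      rw [Multiset.filter_eq_self.2, Multiset.card_map]
      intro s hs
      obtain ⟨t, ht, rfl⟩ := Multiset.mem_map.1 hs
      exact (Multiset.mem_filter.1 ht).2.1
    have e2 : ((S1.map (fun t => t.2.1)).filter (fun s => s.isRight = true)).card = S1.card := by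
      rw [Multiset.filter_eq_self.2, Multiset.card_map]
      intro s hs
      obtain ⟨t, ht, rfl⟩ := Multiset.mem_map.1 hs
      exact (Multiset.mem_filter.1 ht).2.2
    have e3 : S2.card ≤ ((S2.map (fun t => t.1)).filter (fun s => s.isRight = true)).card +
        ((S2.map (fun t => t.2.1)).filter (fun s => s.isRight = true)).card := by
      clear_value S2
      clear hsplit hS2 hle2 c2
      induction S2 using Multiset.induction with
      | empty => simp
      | cons t S2 ih =>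
        have := ih (fun t ht => hex t (by simp [ht]))
        obtain ⟨x, y, z, _, q2, _⟩ := hex t (by simp)
        rw [Multiset.map_cons, Multiset.map_cons, Multiset.card_cons]
        rcases q2 with ⟨r1, r2⟩ | ⟨r1, r2⟩
        · rw [r1, r2, Multiset.filter_cons_of_neg, Multiset.filter_cons_of_pos,
            Multiset.card_cons]
          · omega
          · rfl
          · simp
        · rw [r1, r2, Multiset.filter_cons_of_pos, Multiset.filter_cons_of_neg,
            Multiset.card_cons]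
          · omega
          · simp
          · rfl
    omega
  have c4 : S.card = S1.card + S2.card := by rw [← hsplit, Multiset.card_add]
  omega

/-- common denominator -/
theorem exists_den {ι : Type*} [Fintype ι] (w : ι → ℚ) (hw : ∀ i, 0 ≤ w i) :
    ∃ (D : ℕ) (m : ι → ℕ), 0 < D ∧ ∀ i, (m i : ℚ) = D * w i := by
  classical
  refine ⟨∏ i, (w i).den,
    fun i => (w i).num.toNat * ∏ j ∈ Finset.univ.erase i, (w j).den, ?_, ?_⟩
  · exact Finset.prod_pos fun i _ => (w i).pos
  · intro i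
    push_cast
    rw [← Finset.mul_prod_erase Finset.univ (fun j => ((w j).den : ℚ)) (Finset.mem_univ i)]
    have h1 : ((w i).num.toNat : ℚ) = ((w i).num : ℚ) := by
      have : ((w i).num.toNat : ℤ) = (w i).num := Int.toNat_of_nonneg (Rat.num_nonneg.2 (hw i))
      exact_mod_cast this
    have h2 : (w i) * (w i).den = (w i).num := Rat.mul_den_eq_num (w i)
    rw [h1, ← h2]
    ring

theorem count_map_sum {ι τ σ : Type*} [Fintype ι] [DecidableEq σ] (n : ι → ℕ) (g : ι → τ)
    (f : τ → σ) (s : σ) :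
    Multiset.count s (Multiset.map f (∑ i, n i • ({g i} : Multiset τ))) =
      ∑ i, if f (g i) = s then n i else 0 := by
  have h1 : Multiset.map f (∑ i, n i • ({g i} : Multiset τ)) =
      ∑ i, Multiset.map f (n i • ({g i} : Multiset τ)) :=
    map_sum (Multiset.mapAddMonoidHom f) _ _
  rw [h1, Multiset.count_sum']
  refine Finset.sum_congr rfl fun i _ => ?_
  rw [Multiset.map_nsmul, Multiset.map_singleton, Multiset.count_nsmul,
    Multiset.count_singleton]
  by_cases h : f (g i) = s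
  · rw [if_pos h, if_pos h.symm, mul_one]
  · rw [if_neg h, if_neg (fun h' => h h'.symm), mul_zero]

theorem card_sum_nsmul {ι τ : Type*} [Fintype ι] (n : ι → ℕ) (g : ι → τ) :
    Multiset.card (∑ i, n i • ({g i} : Multiset τ)) = ∑ i, n i := by
  rw [Multiset.card_sum]
  simp

theorem mem_sum_nsmul {ι τ : Type*} [Fintype ι] (n : ι → ℕ) (g : ι → τ) (t : τ)
    (h : t ∈ ∑ i, n i • ({g i} : Multiset τ)) : ∃ i, n i ≠ 0 ∧ t = g i := by
  obtain ⟨i, _, hi⟩ := Multiset.mem_sum.1 h
  refine ⟨i, ?_, ?_⟩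
  · rintro h0
    rw [h0, zero_nsmul] at hi
    simp at hi
  · exact Multiset.mem_singleton.1 (Multiset.mem_of_mem_nsmul hi)

theorem count_univ {τ : Type*} [Fintype τ] [DecidableEq τ] (q : ℕ) (s : τ) :
    Multiset.count s (q • (Finset.univ : Finset τ).val) = q := by
  rw [Multiset.count_nsmul, Multiset.count_eq_one_of_mem Finset.univ.nodup (Finset.mem_univ s),
    mul_one]

/-- the fractional solution -/
theorem frac_part {e : ℕ} {Φ : ℤ} {a : α → ℤ} {b c : Fin 1 → β → ℤ} (hc : ∀ z, |c 0 z| ≤ Φ)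
    (hΦ : 0 ≤ Φ) {w : α → Fin 1 → β → β → ℚ} (hw : Star.IsFrac a b c w) {V : ℚ}
    (hV : ∑ x, ∑ i, ∑ y, ∑ z, w x i y z = V) :
    ∃ (q : ℕ) (W : Multiset ((β ⊕ (β ⊕ Fin e)) × (β ⊕ (β ⊕ Fin e)) × (α ⊕ (β ⊕ Fin e)))),
      0 < q ∧ TPack (vX Φ (b 0) (c 0)) (vY Φ a)
        (q • (Finset.univ : Finset (β ⊕ (β ⊕ Fin e))).val)
        (q • (Finset.univ : Finset (α ⊕ (β ⊕ Fin e))).val) W ∧
      (W.card : ℚ) = q * (((Fintype.card β + e : ℕ) + V) / 2) := by
  classical
  obtain ⟨D, m, hD, hm⟩ := exists_den (fun p : α × β × β => w p.1 0 p.2.1 p.2.2)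
    (fun p => hw.nonneg _ _ _ _)
  have hD' : (0 : ℚ) < D := by exact_mod_cast hD
  -- usages
  have u1 : ∀ x, ∑ y, ∑ z, m (x, y, z) ≤ D := by
    intro x
    have h1 := hw.le1 x
    rw [Fin.sum_univ_one] at h1
    have h2 : ((∑ y, ∑ z, m (x, y, z) : ℕ) : ℚ) = D * ∑ y, ∑ z, w x 0 y z := by
      push_cast
      rw [Finset.mul_sum]
      refine Finset.sum_congr rfl fun y _ => ?_
      rw [Finset.mul_sum]
      exact Finset.sum_congr rfl fun z _ => hm (x, y, z)
    have h3 : ((∑ y, ∑ z, m (x, y, z) : ℕ) : ℚ) ≤ D := by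
      rw [h2]
      nlinarith
    exact_mod_cast h3
  have u2 : ∀ y, ∑ x, ∑ z, m (x, y, z) ≤ D := by
    intro y
    have h1 := hw.le2 0 y
    have h2 : ((∑ x, ∑ z, m (x, y, z) : ℕ) : ℚ) = D * ∑ x, ∑ z, w x 0 y z := by
      push_cast
      rw [Finset.mul_sum]
      refine Finset.sum_congr rfl fun x _ => ?_
      rw [Finset.mul_sum]
      exact Finset.sum_congr rfl fun z _ => hm (x, y, z)
    have h3 : ((∑ x, ∑ z, m (x, y, z) : ℕ) : ℚ) ≤ D := by
      rw [h2]
      nlinarith
    exact_mod_cast h3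
  have u3 : ∀ z, ∑ x, ∑ y, m (x, y, z) ≤ D := by
    intro z
    have h1 := hw.le3 0 z
    have h2 : ((∑ x, ∑ y, m (x, y, z) : ℕ) : ℚ) = D * ∑ x, ∑ y, w x 0 y z := by
      push_cast
      rw [Finset.mul_sum]
      refine Finset.sum_congr rfl fun x _ => ?_
      rw [Finset.mul_sum]
      exact Finset.sum_congr rfl fun y _ => hm (x, y, z)
    have h3 : ((∑ x, ∑ y, m (x, y, z) : ℕ) : ℚ) ≤ D := by
      rw [h2]
      nlinarith
    exact_mod_cast h3
  have uV : ((∑ x, ∑ y, ∑ z, m (x, y, z) : ℕ) : ℚ) = D * V := by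
    rw [← hV]
    push_cast
    rw [Finset.mul_sum]
    refine Finset.sum_congr rfl fun x _ => ?_
    rw [Fin.sum_univ_one, Finset.mul_sum]
    refine Finset.sum_congr rfl fun y _ => ?_
    rw [Finset.mul_sum]
    exact Finset.sum_congr rfl fun z _ => hm (x, y, z)
  -- the solution
  let used : β ⊕ Fin e → ℕ := Sum.elim (fun z => ∑ x, ∑ y, m (x, y, z)) (fun _ => 0)
  have hused : ∀ s, used s ≤ D := by
    rintro (z | k)
    · exact u3 z
    · exact Nat.zero_le _
  let g1 : α × β × β → (β ⊕ (β ⊕ Fin e)) × (β ⊕ (β ⊕ Fin e)) × (α ⊕ (β ⊕ Fin e)) :=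
    fun p => (Sum.inl p.2.1, Sum.inr (Sum.inl p.2.2), Sum.inl p.1)
  let g2 : β ⊕ Fin e → (β ⊕ (β ⊕ Fin e)) × (β ⊕ (β ⊕ Fin e)) × (α ⊕ (β ⊕ Fin e)) :=
    fun s => (Sum.inr s, Sum.inr s, Sum.inr s)
  let W1 : Multiset ((β ⊕ (β ⊕ Fin e)) × (β ⊕ (β ⊕ Fin e)) × (α ⊕ (β ⊕ Fin e))) :=
    ∑ p : α × β × β, (2 * m p) • {g1 p}
  let W2 : Multiset ((β ⊕ (β ⊕ Fin e)) × (β ⊕ (β ⊕ Fin e)) × (α ⊕ (β ⊕ Fin e))) :=
    ∑ s : β ⊕ Fin e, (D - used s) • {g2 s}
  refine ⟨2 * D, W1 + W2, by omega, ⟨?_, ?_, ?_⟩, ?_⟩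
  · intro t ht
    rcases Multiset.mem_add.1 ht with ht | ht
    · obtain ⟨p, hp, rfl⟩ := mem_sum_nsmul _ _ _ ht
      have hp' : m p ≠ 0 := fun h => hp (by rw [h, mul_zero])
      have hw0 : w p.1 0 p.2.1 p.2.2 ≠ 0 := by
        intro h0
        have := hm p
        rw [h0, mul_zero] at this
        exact hp' (by exact_mod_cast this)
      have := hw.use _ _ _ _ hw0
      simp only [g1, vX, vY, Sum.elim_inl, Sum.elim_inr]
      omega
    · obtain ⟨s, hs, rfl⟩ := mem_sum_nsmul _ _ _ ht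
      rcases s with z | k
      · have := (abs_le.1 (hc z)).2
        simp only [g2, vX, vY, Sum.elim_inl, Sum.elim_inr]
        omega
      · simp only [g2, vX, vY, Sum.elim_inr]
        omega
  · rw [Multiset.le_iff_count]
    intro s
    rw [count_univ, Multiset.map_add, Multiset.map_add, Multiset.count_add, Multiset.count_add,
      Multiset.count_add, count_map_sum, count_map_sum, count_map_sum, count_map_sum]
    rcases s with y0 | z0 | k0
    · simp only [g1, g2, Sum.inl.injEq, reduceCtorEq, if_false, Finset.sum_const_zero, add_zero]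
      rw [Fintype.sum_prod_type]
      have : ∑ x, ∑ p : β × β, (if p.1 = y0 then 2 * m (x, p) else 0) =
          2 * ∑ x, ∑ z, m (x, y0, z) := by
        rw [Finset.mul_sum]
        refine Finset.sum_congr rfl fun x _ => ?_
        rw [Fintype.sum_prod_type, Finset.mul_sum, Finset.sum_comm]
        refine Finset.sum_congr rfl fun z _ => ?_
        simp
      rw [this]
      have := u2 y0
      omega
    · simp only [g1, g2, Sum.inr.injEq, Sum.inl.injEq, reduceCtorEq, if_false,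
        Finset.sum_const_zero, zero_add]
      rw [Fintype.sum_prod_type]
      have : ∑ x, ∑ p : β × β, (if p.2 = z0 then 2 * m (x, p) else 0) =
          2 * ∑ x, ∑ y, m (x, y, z0) := by
        rw [Finset.mul_sum]
        refine Finset.sum_congr rfl fun x _ => ?_
        rw [Fintype.sum_prod_type, Finset.mul_sum]
        refine Finset.sum_congr rfl fun y _ => ?_
        simp
      rw [this]
      have h1 : (∑ i : β ⊕ Fin e, if i = Sum.inl z0 then D - used i else 0) =
          D - ∑ x, ∑ y, m (x, y, z0) := by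
        rw [Finset.sum_ite_eq' Finset.univ (Sum.inl z0) (fun i => D - used i)]
        simp [used]
      rw [h1]
      have := u3 z0
      omega
    · simp only [g1, g2, Sum.inr.injEq, reduceCtorEq, if_false,
        Finset.sum_const_zero, zero_add]
      have h1 : (∑ i : β ⊕ Fin e, if i = Sum.inr k0 then D - used i else 0) = D := by
        rw [Finset.sum_ite_eq' Finset.univ (Sum.inr k0) (fun i => D - used i)]
        simp [used]
      rw [h1]
      omega
  · rw [Multiset.le_iff_count]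
    intro s
    rw [count_univ, Multiset.map_add, Multiset.count_add, count_map_sum, count_map_sum]
    rcases s with x0 | s0
    · simp only [g1, g2, Sum.inl.injEq, reduceCtorEq, if_false, Finset.sum_const_zero, add_zero]
      rw [Fintype.sum_prod_type]
      have : ∑ x, ∑ p : β × β, (if x = x0 then 2 * m (x, p) else 0) =
          2 * ∑ y, ∑ z, m (x0, y, z) := by
        rw [Finset.sum_comm]
        have : ∀ p : β × β, (∑ x, if x = x0 then 2 * m (x, p) else 0) = 2 * m (x0, p) := by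
          intro p
          simp
        simp only [this]
        rw [← Finset.mul_sum, Fintype.sum_prod_type]
      rw [this]
      have := u1 x0
      omega
    · simp only [g1, g2, Sum.inr.injEq, reduceCtorEq, if_false, Finset.sum_const_zero, zero_add]
      have h1 : (∑ i : β ⊕ Fin e, if i = s0 then D - used i else 0) = D - used s0 := by
        rw [Finset.sum_ite_eq' Finset.univ s0 (fun i => D - used i)]
        simp
      rw [h1]
      omega
  · have e1 : (Multiset.card W1 : ℚ) = 2 * (D * V) := by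
      rw [← uV]
      have : Multiset.card W1 = 2 * ∑ x, ∑ y, ∑ z, m (x, y, z) := by
        rw [card_sum_nsmul, ← Finset.mul_sum, Fintype.sum_prod_type]
        congr 1
        refine Finset.sum_congr rfl fun x _ => ?_
        rw [Fintype.sum_prod_type]
      rw [this]
      push_cast
      ring
    have e2 : (Multiset.card W2 : ℚ) = D * (Fintype.card β + e : ℕ) - D * V := by
      have h1 : Multiset.card W2 + ∑ x, ∑ y, ∑ z, m (x, y, z) = D * (Fintype.card β + e) := by
        have h2 : Multiset.card W2 = ∑ s, (D - used s) := card_sum_nsmul _ _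
        have h3 : ∑ x, ∑ y, ∑ z, m (x, y, z) = ∑ s, used s := by
          rw [Fintype.sum_sum_type]
          simp only [used, Sum.elim_inl, Sum.elim_inr, Finset.sum_const_zero, add_zero]
          have h6 : ∀ x, ∑ y, ∑ z, m (x, y, z) = ∑ z, ∑ y, m (x, y, z) :=
            fun x => Finset.sum_comm
          simp only [h6]
          exact Finset.sum_comm
        rw [h2, h3, ← Finset.sum_add_distrib]
        have h4 : ∀ s, D - used s + used s = D := fun s => Nat.sub_add_cancel (hused s)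
        simp only [h4, Finset.sum_const, Finset.card_univ, Fintype.card_sum, Fintype.card_fin,
          smul_eq_mul]
        ring
      rw [← uV]
      have h5 : ((Multiset.card W2 + ∑ x, ∑ y, ∑ z, m (x, y, z) : ℕ) : ℚ) =
          ((D * (Fintype.card β + e) : ℕ) : ℚ) := by rw [h1]
      push_cast at h5 ⊢
      linarith
    rw [Multiset.card_add]
    push_cast at e1 e2 ⊢
    rw [e1, e2]
    ring

end Emb

/-- **The embedding.** -/
theorem starEmb : StarEmb := by
  classical
  intro T V h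
  obtain ⟨α, β, iα, iβ, a, b, c, w, hT, hw, hV⟩ := h
  obtain ⟨Φ, hΦ, ha, hb, hc⟩ : ∃ Φ : ℤ, 0 ≤ Φ ∧ (∀ x, |a x| ≤ Φ) ∧ (∀ y, |b 0 y| ≤ Φ) ∧
      ∀ z, |c 0 z| ≤ Φ := by
    refine ⟨∑ x, |a x| + ∑ y, |b 0 y| + ∑ z, |c 0 z|, ?_, ?_, ?_, ?_⟩
    · positivity
    · intro x
      have h1 := Finset.single_le_sum (f := fun x => |a x|) (fun i _ => abs_nonneg _)
        (Finset.mem_univ x)
      have h2 : 0 ≤ ∑ y, |b 0 y| := Finset.sum_nonneg fun i _ => abs_nonneg _
      have h3 : 0 ≤ ∑ y, |c 0 y| := Finset.sum_nonneg fun i _ => abs_nonneg _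
      linarith
    · intro x
      have h1 := Finset.single_le_sum (f := fun x => |b 0 x|) (fun i _ => abs_nonneg _)
        (Finset.mem_univ x)
      have h2 : 0 ≤ ∑ y, |a y| := Finset.sum_nonneg fun i _ => abs_nonneg _
      have h3 : 0 ≤ ∑ y, |c 0 y| := Finset.sum_nonneg fun i _ => abs_nonneg _
      linarith
    · intro x
      have h1 := Finset.single_le_sum (f := fun x => |c 0 x|) (fun i _ => abs_nonneg _)
        (Finset.mem_univ x)
      have h2 : 0 ≤ ∑ y, |a y| := Finset.sum_nonneg fun i _ => abs_nonneg _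
      have h3 : 0 ≤ ∑ y, |b 0 y| := Finset.sum_nonneg fun i _ => abs_nonneg _
      linarith
  let e : ℕ := Fintype.card β + T + 1
  obtain ⟨q, W, hq, hW, hcard⟩ := frac_part (e := e) hc hΦ hw hV
  refine ⟨Fintype.card β + T, ((Fintype.card β + e : ℕ) + V) / 2,
    ⟨(Finset.univ : Finset (β ⊕ (β ⊕ Fin e))).val.map (vX Φ (b 0) (c 0)),
      (Finset.univ : Finset (α ⊕ (β ⊕ Fin e))).val.map (vY Φ a), q,
      W.map (fun t => (vX Φ (b 0) (c 0) t.1, vX Φ (b 0) (c 0) t.2.1, vY Φ a t.2.2)),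
      hq, ?_, ?_, ?_⟩, ?_⟩
  · intro S hS
    obtain ⟨S', h1, h2⟩ := lift_aux _ _ S _ _ hS
    have := int_bound ha hb hc hΦ hT S' h1
    rw [← h2]
    simp only [e] at this
    omega
  · have := hW.push
    rw [Multiset.map_nsmul, Multiset.map_nsmul] at this
    exact this
  · rw [Multiset.card_map]
    exact hcard
  · simp only [e]
    push_cast
    ring

end Vale.Agent.P302.H618
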